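import Vale.Agent.P202.MixedFinal
import Vale.Agent.P202.RankCoreAsm
import Vale.Agent.P202.RWindowMain
import Vale.Agent.P202.RStairChi
import Vale.Agent.P202.RTriangle

/-! Lech's multiplicity inequality for flat local maps of Noetherian local rings. -/

universe u

namespace Vale.Agent.Results.P202.LechFull

open IsLocalRing Filter

/-- For every flat local map `R → S` of Noetherian local rings the Hilbert-Samuel multiplicities
exist and satisfy `e(R) ≤ e(S)`. -/
theorem result (R S : Type u) [CommRing R] [IsLocalRing R] [IsNoetherianRing R] [CommRing S]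
    [IsLocalRing S] [IsNoetherianRing S] [Algebra R S] [IsLocalHom (algebraMap R S)]
    [Module.Flat R S] :
    ∃ (dR dS : ℕ) (eR eS : ℝ),
      ringKrullDim R = (dR : WithBot ℕ∞) ∧ ringKrullDim S = (dS : WithBot ℕ∞) ∧
      Tendsto (fun n : ℕ => (dR.factorial : ℝ) *
          ((Module.length R (R ⧸ maximalIdeal R ^ n)).toNat : ℝ) / (n : ℝ) ^ dR)
        atTop (nhds eR) ∧
      Tendsto (fun n : ℕ => (dS.factorial : ℝ) *
          ((Module.length S (S ⧸ maximalIdeal S ^ n)).toNat : ℝ) / (n : ℝ) ^ dS)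
        atTop (nhds eS) ∧
      0 < eR ∧ eR ≤ eS := by
  have hcore : Vale.Agent.P202.GoalMixedCore.{u} :=
    Vale.Agent.P202.mixedCore_of_rankCore (Vale.Agent.P202.goalRankCore_of
      Vale.Agent.P202.goalRankReg
      (Vale.Agent.P202.goalRankWindow_of Vale.Agent.P202.goalStairChi
        Vale.Agent.P202.goalTriangleChi))
  have hR := Vale.Agent.P202.ringKrullDim_eq_coe_ndim R
  have hS := Vale.Agent.P202.ringKrullDim_eq_coe_ndim S
  obtain ⟨eR, eS, h1, h2, h3, h4⟩ := Vale.Agent.P202.lech_of_mixedCore hcore R S _ _ hR hS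
  exact ⟨_, _, eR, eS, hR, hS, h1, h2, h3, h4⟩

end Vale.Agent.Results.P202.LechFull
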